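import Vale.Agent.P141.PL.H804.Star
import Vale.Agent.P141.PL.H318.Sys1

/-!
# P141, line W: packing of affected squares

Cells are sets of values of a linear form, dying cells of different scales are disjoint.  A square
of scale `k` is affected if it is close to a dying cell of scale `k`.  Affected squares (of all
scales) inside a rectangle have total measure at most `50` times the measure of the rectangle.
-/

namespace Vale.Agent.P141.H48

open Finset Vale.Agent.P141.PL
open Vale.Agent.P141.PL.H318 (ixs)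

noncomputable section

open scoped Classical

/-- indicator -/
def ind (p : Prop) : ℝ := if p then 1 else 0

theorem ind_nonneg (p : Prop) : 0 ≤ ind p := by unfold ind; split_ifs <;> norm_num

theorem ind_le_one (p : Prop) : ind p ≤ 1 := by unfold ind; split_ifs <;> norm_num

theorem sum_ind_le_one {D : ℕ → Prop} (hdis : ∀ k l, D k → D l → k = l) (S : Finset ℕ) :
    ∑ k ∈ S, ind (D k) ≤ 1 := by
  by_cases h : ∃ k ∈ S, D k
  · obtain ⟨k, hk, hD⟩ := h
    rw [sum_eq_single k]
    · exact ind_le_one _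
    · intro l _ hl
      unfold ind
      rw [if_neg fun h' => hl (hdis l k h' hD)]
    · exact fun h' => absurd hk h'
  · push Not at h
    rw [sum_eq_zero]
    · norm_num
    · intro k hk
      unfold ind
      rw [if_neg (h k hk)]

/-- a translate of the values by a moderate amount stays in the cell -/
theorem shift_in {c0 k : ℕ} (hc0 : 7 ≤ c0) {σ β s0 : ℤ} (hβ : β ≠ 0) (hβ3 : |β| ≤ 3) :
    (∀ s : ℤ, |s - s0| ≤ 12 * 2 ^ k → ixs c0 σ k (s + β * (12 * 2 ^ k)) = ixs c0 σ k s0) ∨
    (∀ s : ℤ, |s - s0| ≤ 12 * 2 ^ k → ixs c0 σ k (s - β * (12 * 2 ^ k)) = ixs c0 σ k s0) := by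
  have hP : (0 : ℤ) < 2 ^ k := by positivity
  have hQ : (128 : ℤ) * 2 ^ k ≤ 2 ^ (k + c0) := by
    have h1 : (2 : ℤ) ^ 7 ≤ 2 ^ c0 := pow_le_pow_right₀ (by norm_num) hc0
    calc (128 : ℤ) * 2 ^ k = 2 ^ 7 * 2 ^ k := by norm_num
      _ ≤ 2 ^ c0 * 2 ^ k := mul_le_mul_of_nonneg_right h1 hP.le
      _ = 2 ^ (k + c0) := by rw [pow_add, mul_comm]
  set P : ℤ := 2 ^ k with hPd
  set Q : ℤ := 2 ^ (k + c0) with hQd
  have hQ0 : 0 < Q := by linarith
  have h3 := Int.mul_ediv_add_emod (s0 + σ) Q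
  have h4 := Int.emod_nonneg (s0 + σ) hQ0.ne'
  have h5 := Int.emod_lt_of_pos (s0 + σ) hQ0
  set r : ℤ := (s0 + σ) % Q with hr
  have key : ∀ t : ℤ, 0 ≤ t + r → t + r < Q → ixs c0 σ k (s0 + t) = ixs c0 σ k s0 := by
    intro t h0 h1
    unfold ixs
    rw [← hQd]
    set z : ℤ := (s0 + σ) / Q with hz
    have e : s0 + t + σ = (t + r) + Q * z := by linarith
    rw [e, Int.add_mul_ediv_left _ _ hQ0.ne', Int.ediv_eq_zero_of_lt h0 h1, zero_add]
  have hb := abs_le.mp hβ3
  rcases lt_or_gt_of_ne hβ with hneg | hpos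
  · -- β < 0
    by_cases hlow : 2 * r < Q
    · right
      intro s hs
      have hs' := abs_le.mp hs
      have e : s - β * (12 * P) = s0 + ((s - s0) - β * (12 * P)) := by ring
      rw [e]
      apply key
      · nlinarith
      · nlinarith
    · left
      intro s hs
      have hs' := abs_le.mp hs
      have e : s + β * (12 * P) = s0 + ((s - s0) + β * (12 * P)) := by ring
      rw [e]
      apply key
      · nlinarith
      · nlinarith
  · by_cases hlow : 2 * r < Q
    · left
      intro s hs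
      have hs' := abs_le.mp hs
      have e : s + β * (12 * P) = s0 + ((s - s0) + β * (12 * P)) := by ring
      rw [e]
      apply key
      · nlinarith
      · nlinarith
    · right
      intro s hs
      have hs' := abs_le.mp hs
      have e : s - β * (12 * P) = s0 + ((s - s0) - β * (12 * P)) := by ring
      rw [e]
      apply key
      · nlinarith
      · nlinarith

/-- shift of an interval, nonnegative function -/
theorem sum_shift_le {B k : ℕ} (hk : k ≤ B) (m : ℤ) {g : ℤ → ℝ} (hg : ∀ y, 0 ≤ g y) {t : ℤ}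
    (ht : |t| ≤ 12 * 2 ^ k) :
    ∑ y ∈ iv B m, g (y + t) ≤ ∑ y ∈ Ico (2 ^ B * m - 12 * 2 ^ B) (2 ^ B * m + 13 * 2 ^ B), g y := by
  have h1 : ∑ y ∈ iv B m, g (y + t) = ∑ y ∈ (iv B m).image (fun y => y + t), g y := by
    rw [sum_image]
    intro x _ y _ h
    simpa using h
  rw [h1]
  refine sum_le_sum_of_subset_of_nonneg ?_ fun y _ _ => hg y
  intro z hz
  rw [mem_image] at hz
  obtain ⟨y, hy, rfl⟩ := hz
  unfold iv at hy
  rw [mem_Ico] at hy ⊢
  have ht' := abs_le.mp ht
  have h2 : (2 : ℤ) ^ k ≤ 2 ^ B := pow_le_pow_right₀ (by norm_num) hk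
  constructor <;> linarith

/-- **Packing of affected squares.** -/
theorem pack {c0 : ℕ} (hc0 : 7 ≤ c0) {σ : ℤ} {D : ℕ → ℤ → Prop}
    (hD : ∀ k s s', ixs c0 σ k s' = ixs c0 σ k s → D k s → D k s')
    (hdis : ∀ k l s, D k s → D l s → k = l) {b α β : ℤ} (hβ : β ≠ 0) (hβ3 : |β| ≤ 3)
    {af : ℕ → ℤ → ℤ → Prop}
    (haf : ∀ k n m, af k n m → ∃ s0, D k s0 ∧
      ∀ x ∈ iv k n, ∀ y ∈ iv k m, |b + α * x + β * y - s0| ≤ 12 * 2 ^ k)
    (A B : ℕ) (n m : ℤ) :
    ∑ k ∈ range (min A B + 1), ∑ n' ∈ iv (A - k) n, ∑ m' ∈ iv (B - k) m,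
      (if af k n' m' then (4 : ℝ) ^ k else 0) ≤ 50 * (2 ^ A * 2 ^ B) := by
  set sv : ℤ → ℤ → ℤ := fun x y => b + α * x + β * y with hsv
  have step1 : ∀ k n' m', (if af k n' m' then (4 : ℝ) ^ k else 0) ≤
      ∑ x ∈ iv k n', ∑ y ∈ iv k m', (ind (D k (sv x (y + 12 * 2 ^ k))) +
        ind (D k (sv x (y + -(12 * 2 ^ k))))) := by
    intro k n' m'
    have hnn : ∀ x y : ℤ, 0 ≤ ind (D k (sv x (y + 12 * 2 ^ k))) +
        ind (D k (sv x (y + -(12 * 2 ^ k)))) := fun x y =>
      add_nonneg (ind_nonneg _) (ind_nonneg _)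
    split_ifs with h
    · obtain ⟨s0, hs0, hval⟩ := haf k n' m' h
      have hc : (4 : ℝ) ^ k = ∑ x ∈ iv k n', ∑ y ∈ iv k m', (1 : ℝ) := by
        simp only [sum_const, card_iv, nsmul_eq_mul, mul_one]
        push_cast
        rw [← mul_pow]; norm_num
      rw [hc]
      refine sum_le_sum fun x hx => sum_le_sum fun y hy => ?_
      rcases shift_in (σ := σ) (k := k) (s0 := s0) hc0 hβ hβ3 with h1 | h1
      · have h2 := h1 _ (hval x hx y hy)
        have h3 : D k (sv x (y + 12 * 2 ^ k)) := by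
          have e : sv x (y + 12 * 2 ^ k) = b + α * x + β * y + β * (12 * 2 ^ k) := by
            rw [hsv]; ring
          rw [e]
          exact hD k s0 _ h2 hs0
        have e1 : ind (D k (sv x (y + 12 * 2 ^ k))) = 1 := by unfold ind; rw [if_pos h3]
        rw [e1]
        have := ind_nonneg (D k (sv x (y + -(12 * 2 ^ k))))
        linarith
      · have h2 := h1 _ (hval x hx y hy)
        have h3 : D k (sv x (y + -(12 * 2 ^ k))) := by
          have e : sv x (y + -(12 * 2 ^ k)) = b + α * x + β * y - β * (12 * 2 ^ k) := by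
            rw [hsv]; ring
          rw [e]
          exact hD k s0 _ h2 hs0
        have e1 : ind (D k (sv x (y + -(12 * 2 ^ k)))) = 1 := by unfold ind; rw [if_pos h3]
        rw [e1]
        have := ind_nonneg (D k (sv x (y + 12 * 2 ^ k)))
        linarith
    · exact sum_nonneg fun x _ => sum_nonneg fun y _ => hnn x y
  set Z : Finset ℤ := Ico (2 ^ B * m - 12 * 2 ^ B) (2 ^ B * m + 13 * 2 ^ B) with hZ
  have hZc : (Z.card : ℝ) = 25 * 2 ^ B := by
    rw [hZ, Int.card_Ico]
    have : (2 ^ B * m + 13 * 2 ^ B - (2 ^ B * m - 12 * 2 ^ B) : ℤ) = ((25 * 2 ^ B : ℕ) : ℤ) := by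
      push_cast; ring
    rw [this, Int.toNat_natCast]
    push_cast; ring
  have step2 : ∀ k ∈ range (min A B + 1), ∑ n' ∈ iv (A - k) n, ∑ m' ∈ iv (B - k) m,
      (if af k n' m' then (4 : ℝ) ^ k else 0) ≤
      2 * ∑ x ∈ iv A n, ∑ y ∈ Z, ind (D k (sv x y)) := by
    intro k hk
    rw [mem_range] at hk
    have hkA : k ≤ A := by omega
    have hkB : k ≤ B := by omega
    calc ∑ n' ∈ iv (A - k) n, ∑ m' ∈ iv (B - k) m, (if af k n' m' then (4 : ℝ) ^ k else 0)
        ≤ ∑ n' ∈ iv (A - k) n, ∑ m' ∈ iv (B - k) m, ∑ x ∈ iv k n', ∑ y ∈ iv k m',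
          (ind (D k (sv x (y + 12 * 2 ^ k))) + ind (D k (sv x (y + -(12 * 2 ^ k))))) :=
          sum_le_sum fun n' _ => sum_le_sum fun m' _ => step1 k n' m'
      _ = ∑ n' ∈ iv (A - k) n, ∑ x ∈ iv k n', ∑ m' ∈ iv (B - k) m, ∑ y ∈ iv k m',
          (ind (D k (sv x (y + 12 * 2 ^ k))) + ind (D k (sv x (y + -(12 * 2 ^ k))))) := by
          refine sum_congr rfl fun n' _ => ?_
          rw [sum_comm]
      _ = ∑ x ∈ iv A n, ∑ y ∈ iv B m,
          (ind (D k (sv x (y + 12 * 2 ^ k))) + ind (D k (sv x (y + -(12 * 2 ^ k))))) := by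
          rw [H804.iv_sum hkA n (fun x => ∑ m' ∈ iv (B - k) m, ∑ y ∈ iv k m',
            (ind (D k (sv x (y + 12 * 2 ^ k))) + ind (D k (sv x (y + -(12 * 2 ^ k))))))]
          refine sum_congr rfl fun x _ => ?_
          rw [H804.iv_sum hkB m (fun y => ind (D k (sv x (y + 12 * 2 ^ k))) +
            ind (D k (sv x (y + -(12 * 2 ^ k)))))]
      _ ≤ ∑ x ∈ iv A n, (∑ y ∈ Z, ind (D k (sv x y)) + ∑ y ∈ Z, ind (D k (sv x y))) := by
          refine sum_le_sum fun x _ => ?_
          rw [sum_add_distrib]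
          refine add_le_add ?_ ?_
          · exact sum_shift_le hkB m (g := fun y => ind (D k (sv x y))) (fun y => ind_nonneg _)
              (by rw [abs_of_nonneg (by positivity)])
          · exact sum_shift_le hkB m (g := fun y => ind (D k (sv x y))) (fun y => ind_nonneg _)
              (by rw [abs_neg, abs_of_nonneg (by positivity)])
      _ = _ := by
          rw [mul_sum]
          exact sum_congr rfl fun x _ => by ring
  refine (sum_le_sum step2).trans ?_
  rw [← mul_sum, sum_comm]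
  have step3 : ∀ x ∈ iv A n, ∑ k ∈ range (min A B + 1), ∑ y ∈ Z, ind (D k (sv x y)) ≤
      25 * 2 ^ B := by
    intro x _
    rw [sum_comm]
    refine (sum_le_sum fun y _ => sum_ind_le_one (D := fun k => D k (sv x y))
      (fun k l => hdis k l _) _).trans ?_
    rw [sum_const, nsmul_eq_mul, mul_one, hZc]
  have step4 := sum_le_sum step3
  rw [sum_const, card_iv, nsmul_eq_mul] at step4
  push_cast at step4
  linarith

end

end Vale.Agent.P141.H48
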