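import Vale.Agent.P141.H958.EFin
import Vale.Agent.P141.H922.PairW
import Vale.Agent.P141.H347.Tr2
import Vale.Agent.P141.H769.MomCell
import Vale.Agent.P141.H48.Pack

/-!
# P141, line W, squad EN: definitions and statements

Slots are static functions killed outside the alive cells.  The cost of an atom in the pair
weight, one static third slot.
-/

namespace Vale.Agent.P141.H48

open Finset Vale.Agent.P141.PL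
open Vale.Agent.P141.H315 (dot)
open Vale.Agent.P141.PL.H315 (cube3 atm Tri A2 avg)
open Vale.Agent.P141.PL.H318 (ixs a1)
open Vale.Agent.P141.PL.H95 (gr)
open Vale.Agent.P141.PL.H560 (cbs bx0)
open Vale.Agent.P141.H922 (n2 n4 nN pw3 wP)
open Vale.Agent.P141.H769 (mo4f)
open Vale.Agent.P141.H958 (Aff PackQ s4 pwr)
open Vale.Agent.P141.H736 (Path)
open Vale.Agent.P141.PL.H804 (bx3)
open Vale.Agent.P141.PL.H588 (Pl)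

noncomputable section

open scoped Classical

/-! ### Slots on the line -/

/-- The alive cells: constant on the cells of scale `k`, decreasing when the scale decreases. -/
structure Alv (c0 : ℕ) (σ : ℤ) (al : ℕ → ℤ → Prop) : Prop where
  const : ∀ k s s', ixs c0 σ k s' = ixs c0 σ k s → (al k s' ↔ al k s)
  mono : ∀ k s, al k s → al (k + 1) s

/-- The static function killed outside the alive cells. -/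
def kl (al : ℕ → ℤ → Prop) (f : ℤ → ℝ) (k : ℕ) (s : ℤ) : ℝ := if al k s then f s else 0

/-- Energy of a slot on the alive cells. -/
def ESl (c0 : ℕ) (σ : ℤ) (al : ℕ → ℤ → Prop) (n : ℕ) (e : ℝ) (f : ℤ → ℝ) : Prop :=
  ∀ k, 1 ≤ k → k ≤ n → ∀ s, al k s → dot ((gr c0 σ).cube k s) f f ≤ e * 2 ^ (k + c0)

/-- Uniformity of a slot on the alive cells, pair weight, linear form `c`. -/
def USl (c0 : ℕ) (σ : ℤ) (al : ℕ → ℤ → Prop) (n : ℕ) (c : Pt) (t : ℝ) (f : ℤ → ℝ) : Prop :=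
  ∀ k, 1 ≤ k → k ≤ n → ∀ s, al k s → ∀ (q : Pt) (u : Tri),
    |dot ((gr c0 σ).cube k s) f (a1 c k (q, u))| ≤ wP t (cube3 k q) u

/-! ### Slots on the boxes: functions of `(x₀, x, y)`, `x₀` the slicing variable -/

/-- Box form of a slot: `Q` the affected cubes, line energies of the input of scale `k + 1` on the
cubes of scale `k`. -/
structure BSl (n : ℕ) (e cP : ℝ) (F : ℕ → Pt → ℝ) (Q : ℕ → Pt → Prop) : Prop where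
  agree : ∀ k, 1 ≤ k → k < n → ∀ m : Pt, ¬ Q k m → ∀ y ∈ cb k m, F (k + 1) y = F k y
  pack : ∀ x0 : ℤ, ∀ K ≤ n, ∀ r s : ℤ, ∑ k ∈ range (K + 1), ∑ r' ∈ iv (K - k) r,
    ∑ s' ∈ iv (K - k) s, (if Q k (ix k x0, r', s') then (4 : ℝ) ^ k else 0) ≤ cP * 4 ^ K
  l0 : ∀ k < n, ∀ m x y : ℤ, ∑ z ∈ iv k m, F (k + 1) (z, x, y) ^ 2 ≤ e * 2 ^ k
  l1 : ∀ k < n, ∀ m z y : ℤ, ∑ x ∈ iv k m, F (k + 1) (z, x, y) ^ 2 ≤ e * 2 ^ k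
  l2 : ∀ k < n, ∀ m z x : ℤ, ∑ y ∈ iv k m, F (k + 1) (z, x, y) ^ 2 ≤ e * 2 ^ k

/-- Uniformity on the cubes of scale `k` of the input of scale `k + 1`. -/
def BUn (n : ℕ) (t : ℝ) (F : ℕ → Pt → ℝ) : Prop :=
  ∀ k < n, ∀ (q : Pt) (u : Tri), |∑ y ∈ cube3 k q, F (k + 1) y * atm u y| ≤ wP t (cube3 k q) u

/-- Fourth moments of the gauged slices on the cubes of scale `k` of the input of scale `k + 1`. -/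
def Mo4 (n : ℕ) (M : ℝ) (F : ℕ → Pt → ℝ) : Prop :=
  ∀ k < n, ∀ (m : Pt) (a : ℤ → ℤ → ℝ), mo4f (iv k m.1) (iv k m.2.1) (iv k m.2.2) a (F (k + 1)) ≤
    M * (n2 (iv k m.2.1 ×ˢ iv k m.2.2) (fun p => a p.1 p.2) ^ 2 *
      n4 (iv k m.2.1 ×ˢ iv k m.2.2) (fun p => a p.1 p.2) ^ 2)

/-! ### Stopping -/

/-- average of the fourth power of an edge function on a square -/
def A4 (k : ℕ) (a : ℤ × ℤ → ℝ) (s t : ℤ) : ℝ :=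
  avg (Vale.Agent.P141.PL.H315.iv k s ×ˢ Vale.Agent.P141.PL.H315.iv k t) fun w => a w ^ 4

/-- one of the two averages on the square of scale `k` is more than `Λ` times the one at scale
`K` -/
def bg (Λ : ℝ) (a : ℤ × ℤ → ℝ) (K k : ℕ) (s t : ℤ) : Prop :=
  Λ * A2 K a s t < A2 k a s t ∨ Λ * A4 K a s t < A4 k a s t

/-- the square is stopped -/
def sst (Λ : ℝ) (a : ℤ × ℤ → ℝ) (K k : ℕ) (s t : ℤ) : Prop := ∃ m, k ≤ m ∧ m ≤ K ∧ bg Λ a K m s t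

/-- the cube is stopped -/
def cst (Λ : ℝ) (u : Tri) (K k : ℕ) (z : Pt) : Prop :=
  sst Λ u.1 K k z.1 z.2.1 ∨ sst Λ u.2.1 K k z.1 z.2.2 ∨ sst Λ u.2.2 K k z.2.1 z.2.2

/-- **EN1** (generations): one generation costs `P0`, everything costs `2 P0`. -/
def GenSt (Λ : ℝ) : Prop :=
  ∀ P0 : ℝ, 0 ≤ P0 → ∀ (u : Tri) (c : ℕ → Pt → ℝ) (n : ℕ),
    (∀ K ≤ n, ∀ x, ∑ k ∈ range (K + 1), ∑ z ∈ cube3 K x with ¬ cst Λ u K k z, c k z ≤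
      P0 * wP 1 (cube3 K x) u) →
    ∀ K ≤ n, ∀ x, ∑ k ∈ range (K + 1), ∑ z ∈ cube3 K x, c k z ≤ 2 * P0 * wP 1 (cube3 K x) u

/-! ### Gauged paths at one `x₀` -/

/-- the gauged slice, killed on the stopped squares, zero at scale `0` -/
def pth (Λ : ℝ) (a : ℤ × ℤ → ℝ) (K : ℕ) (F : ℕ → Pt → ℝ) (x0 : ℤ) (k : ℕ) (x y : ℤ) : ℝ :=
  if k = 0 ∨ sst Λ a K k x y then 0 else a (x, y) * F k (x0, x, y)

/-- its affected squares -/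
def Qth (Λ : ℝ) (a : ℤ × ℤ → ℝ) (K : ℕ) (Q : ℕ → Pt → Prop) (x0 : ℤ) (k : ℕ) (r s : ℤ) : Prop :=
  k = 0 ∨ Q k (ix k x0, r, s) ∨
    (sst Λ a K k (2 ^ k * r) (2 ^ k * s) ∧ ¬ sst Λ a K (k + 1) (2 ^ k * r) (2 ^ k * s))

/-- the own energy of a path (fourth powers) -/
def own4 (N : ℕ) (R S : ℤ) (Q : ℕ → ℤ → ℤ → Prop) (F : ℕ → ℤ → ℤ → ℝ) : ℝ :=
  ∑ i ∈ Aff N R S Q, (4 : ℝ) ^ i.1 * s4 i.1 i.1 (F (i.1 + 1)) i.2.1 i.2.2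

/-- **EN3a**: paths. -/
def PthSt (Λ : ℝ) : Prop :=
  ∀ (n : ℕ) (e cP : ℝ) (F : ℕ → Pt → ℝ) (Q : ℕ → Pt → Prop), 0 ≤ cP → BSl n e cP F Q →
  ∀ K ≤ n, ∀ (a : ℤ × ℤ → ℝ) (s t x0 : ℤ),
    Path K (ix K s) (ix K t) (Qth Λ a K Q x0) (pth Λ a K F x0) ∧ pth Λ a K F x0 0 = 0 ∧
    PackQ K (ix K s) (ix K t) (Qth Λ a K Q x0) (cP + 2)

/-- **EN3b**: the own energies summed over `x₀`. -/
def OwnSt (Λ : ℝ) : Prop :=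
  ∀ (n : ℕ) (e cP M : ℝ) (F : ℕ → Pt → ℝ) (Q : ℕ → Pt → Prop), 0 ≤ cP → 0 ≤ e → 0 ≤ M →
  BSl n e cP F Q → Mo4 n M F →
  ∀ K ≤ n, ∀ (a : ℤ × ℤ → ℝ) (s t t0 : ℤ),
    ∑ x0 ∈ iv K t0, own4 K (ix K s) (ix K t) (Qth Λ a K Q x0) (pth Λ a K F x0) ≤
      8 * Λ ^ 2 * (cP + 2) * M * (A2 K a s t * √(A4 K a s t)) * 8 ^ K ∧
    ∑ x0 ∈ iv K t0, pwr K (ix K s) (ix K t) (Qth Λ a K Q x0) (pth Λ a K F x0) ≤
      4 * Λ * (cP + 2) * e * A2 K a s t * 8 ^ K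

/-! ### The engine -/

/-- **The engine in exponent form** (from 958's arithmetic pair bounds and 312's profile path):
one plane, three paths with fourth power energies `G` and square energies `D`. -/
def EngE (C ε : ℝ) : Prop :=
  ∀ (N : ℕ) (R : Pt) (c : ℕ → ℤ), Pl c →
  ∀ (s : ℕ → Finset Pt), (∀ k ∈ Icc 1 N, s k ⊆ bx3 N R k (c k)) →
  ∀ (A B H : ℕ → ℤ → ℤ → ℝ) (QA QB QH : ℕ → ℤ → ℤ → Prop) (cP GA GB GH DA DB DH : ℝ), 1 ≤ cP →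
    Path N R.1 R.2.1 QA A → A 0 = 0 → PackQ N R.1 R.2.1 QA cP →
    own4 N R.1 R.2.1 QA A ≤ GA → pwr N R.1 R.2.1 QA A ≤ DA →
    Path N R.2.1 R.2.2 QB B → B 0 = 0 → PackQ N R.2.1 R.2.2 QB cP →
    own4 N R.2.1 R.2.2 QB B ≤ GB → pwr N R.2.1 R.2.2 QB B ≤ DB →
    Path N R.1 R.2.2 QH H → H 0 = 0 → PackQ N R.1 R.2.2 QH cP →
    own4 N R.1 R.2.2 QH H ≤ GH → pwr N R.1 R.2.2 QH H ≤ DH →
    ∑ k ∈ Icc 1 N, (2 ^ k : ℝ)⁻¹ * ∑ m ∈ s k, |tri k m (A k) (B k) (H k)| ≤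
      C * cP * (GA ^ (1 / 4 : ℝ) * GB ^ (1 / 4 : ℝ) * DH ^ (1 / 2 : ℝ) +
        GA ^ (1 / 4 - ε / 2) * GB ^ (1 / 4 - ε / 2) * DA ^ ε * DB ^ ε * DH ^ (1 / 2 - 2 * ε) *
          GH ^ ε)

/-- **EN4b**: Hölder in `x₀` and the pair products. -/
def HolSt (C ε : ℝ) : Prop :=
  ∀ (X : Finset ℤ) (GA GB GH DA DB DH : ℤ → ℝ), (∀ x, 0 ≤ GA x) → (∀ x, 0 ≤ GB x) →
    (∀ x, 0 ≤ GH x) → (∀ x, 0 ≤ DA x) → (∀ x, 0 ≤ DB x) → (∀ x, 0 ≤ DH x) →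
  ∀ (W tA tB eA eB eH a2 a4 b2 b4 h2 h4 : ℝ), 0 ≤ W → 0 ≤ tA → 0 ≤ tB → tA ^ 2 ≤ eA →
    tB ^ 2 ≤ eB → 0 ≤ eH → 0 ≤ a2 → 0 ≤ a4 → 0 ≤ b2 → 0 ≤ b4 → 0 ≤ h2 → 0 ≤ h4 →
    ∑ x ∈ X, GA x ≤ W * (tA ^ 2 * eA * (a2 ^ 2 * a4 ^ 2)) → ∑ x ∈ X, DA x ≤ W * (eA * a2 ^ 2) →
    ∑ x ∈ X, GB x ≤ W * (tB ^ 2 * eB * (b2 ^ 2 * b4 ^ 2)) → ∑ x ∈ X, DB x ≤ W * (eB * b2 ^ 2) →
    ∑ x ∈ X, GH x ≤ W * (eH ^ 2 * (h2 ^ 2 * h4 ^ 2)) → ∑ x ∈ X, DH x ≤ W * (eH * h2 ^ 2) →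
    ∑ x ∈ X, (GA x ^ (1 / 4 : ℝ) * GB x ^ (1 / 4 : ℝ) * DH x ^ (1 / 2 : ℝ) +
        GA x ^ (1 / 4 - ε / 2) * GB x ^ (1 / 4 - ε / 2) * DA x ^ ε * DB x ^ ε *
          DH x ^ (1 / 2 - 2 * ε) * GH x ^ ε) ≤
      C * W * ((tA * tB) ^ (1 / 2 - ε) * (eA * eB) ^ (1 / 4 + ε / 2) * eH ^ (1 / 2 : ℝ)) *
        (√(a2 * a4) * √(b2 * b4) * h2 + √(a2 * a4) * √(h2 * h4) * b2 + √(b2 * b4) * √(h2 * h4) * a2)

/-! ### The cost in one position -/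

/-- the cost of an atom in the cube of scale `K` of `x`, companions not depending on the node -/
def cos0 (o : ℤ) (K : ℕ) (x : Pt) (u : Tri) (F1 F2 F3 : ℕ → Pt → ℝ) : ℝ :=
  ∑ k ∈ Icc 1 K, (2 ^ k : ℝ)⁻¹ * ∑ m ∈ cbs K (cx K x) k,
    |loc k (bx0 o m) (atm u) (F1 k) (F2 k) (F3 k)|

/-- the price of (E) -/
def prE (ε tA tB eA eB eH : ℝ) : ℝ :=
  (tA * tB) ^ (1 / 2 - ε) * (eA * eB) ^ (1 / 4 + ε / 2) * eH ^ (1 / 2 : ℝ)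

/-- a uniform slot on the boxes -/
def US (n : ℕ) (t e cP : ℝ) (F : ℕ → Pt → ℝ) : Prop :=
  0 ≤ t ∧ t ^ 2 ≤ e ∧ BUn n t F ∧ ∃ Q, BSl n e cP F Q

/-- an `L²` slot on the boxes -/
def ES (n : ℕ) (e cP : ℝ) (F : ℕ → Pt → ℝ) : Prop := 0 ≤ e ∧ ∃ Q, BSl n e cP F Q

/-- **EN6**: (E) in the position of role `0`, `L²` slot `F2`. -/
def Pos2 (C ε cP : ℝ) : Prop :=
  ∀ (n : ℕ) (t1 t3 e1 e2 e3 : ℝ) (F1 F2 F3 : ℕ → Pt → ℝ), US n t1 e1 cP F1 → US n t3 e3 cP F3 →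
    ES n e2 cP F2 → ∀ o : ℤ, o = 1 ∨ o = -1 → ∀ K ≤ n, ∀ (x : Pt) (u : Tri),
    cos0 o K x u F1 F2 F3 ≤ C * prE ε t1 t3 e1 e3 e2 * wP 1 (cube3 K x) u

/-- **EN7**: the other two positions of the `L²` slot. -/
def Pos3 (C ε cP : ℝ) : Prop :=
  ∀ (n : ℕ) (t1 t2 e1 e2 e3 : ℝ) (F1 F2 F3 : ℕ → Pt → ℝ), US n t1 e1 cP F1 → US n t2 e2 cP F2 →
    ES n e3 cP F3 → ∀ o : ℤ, o = 1 ∨ o = -1 → ∀ K ≤ n, ∀ (x : Pt) (u : Tri),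
    cos0 o K x u F1 F2 F3 ≤ C * prE ε t1 t2 e1 e2 e3 * wP 1 (cube3 K x) u

def Pos1 (C ε cP : ℝ) : Prop :=
  ∀ (n : ℕ) (t2 t3 e1 e2 e3 : ℝ) (F1 F2 F3 : ℕ → Pt → ℝ), US n t2 e2 cP F2 → US n t3 e3 cP F3 →
    ES n e1 cP F1 → ∀ o : ℤ, o = 1 ∨ o = -1 → ∀ K ≤ n, ∀ (x : Pt) (u : Tri),
    cos0 o K x u F1 F2 F3 ≤ C * prE ε t2 t3 e2 e3 e1 * wP 1 (cube3 K x) u

/-- **EN5**: from the line to the boxes; `c` any linear form with nonzero coefficients at most `3`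
in absolute value; `T` a constant depending on `c0` only. -/
def CmpSt (c0 : ℕ) (T : ℝ) : Prop :=
  ∀ (σ : ℤ) (al : ℕ → ℤ → Prop), Alv c0 σ al → ∀ (n : ℕ) (c : Pt), c.1 ≠ 0 → c.2.1 ≠ 0 →
    c.2.2 ≠ 0 → |c.1| ≤ 3 → |c.2.1| ≤ 3 → |c.2.2| ≤ 3 →
  ∀ (e : ℝ) (f : ℤ → ℝ), 0 ≤ e → ESl c0 σ al n e f →
    ES n (T * e) 52 (fun k p => kl al f k (el c p)) ∧
    ∀ t : ℝ, 0 ≤ t → t ^ 2 ≤ e → USl c0 σ al n c t f →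
      US n (T * t) (T ^ 2 * e) 52 (fun k p => kl al f k (el c p))

end

end Vale.Agent.P141.H48
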