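import Vale.Agent.P141.H48.ENdefs
import Vale.Agent.P141.H579.Run4
import Vale.Agent.P141.PL.H990.Gen

/-!
# P141, line W, squad EN: generations for the pair weight
-/

namespace Vale.Agent.P141.H48

open Finset Vale.Agent.P141.PL
open Vale.Agent.P141.H315 (Grid)
open Vale.Agent.P141.PL.H315 (cube3 atm Tri A2 A2_nonneg avg avg_nonneg e12 e13 e23 card_cube3
  mem_cube3 gz card_cube3_pos)
open Vale.Agent.P141.H922 (n2 n4 nN pw3 wP n2_nonneg n4_nonneg wP_nonneg n2_e12 n2_e13 n2_e23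
  n4_e12 n4_e13 n4_e23 nN_e12 nN_e13 nN_e23 pw3_nonneg)
open Vale.Agent.P141.H579 (pM Big big_of pw3_le_pM tail_pM_card)
open Vale.Agent.P141.PL.H990 (Rule ofCond)

noncomputable section

open scoped Classical

theorem A4_congr1 {k : ℕ} (a : ℤ × ℤ → ℝ) {s s' t t' : ℤ} (hs : s' ∈ H315.iv k s)
    (ht : t' ∈ H315.iv k t) : A4 k a s' t' = A4 k a s t := by
  unfold A4; rw [H315.iv_eq hs, H315.iv_eq ht]

theorem A4_nonneg1 (k : ℕ) (a : ℤ × ℤ → ℝ) (s t : ℤ) : 0 ≤ A4 k a s t :=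
  avg_nonneg fun _ _ => by positivity

theorem bg_congr1 {Λ : ℝ} (a : ℤ × ℤ → ℝ) {K k : ℕ} (_hk : k ≤ K) {s s' t t' : ℤ}
    (hs : s' ∈ H315.iv k s) (ht : t' ∈ H315.iv k t) (hs' : s' ∈ H315.iv K s)
    (ht' : t' ∈ H315.iv K t) : bg Λ a K k s' t' ↔ bg Λ a K k s t := by
  unfold bg
  rw [H990.A2_congr a hs ht, H990.A2_congr a hs' ht', A4_congr1 a hs ht, A4_congr1 a hs' ht']

/-- one of the six averages is big at the scale `m` -/
def bgc (Λ : ℝ) (u : Tri) (K m : ℕ) (z : Pt) : Prop :=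
  bg Λ u.1 K m z.1 z.2.1 ∨ bg Λ u.2.1 K m z.1 z.2.2 ∨ bg Λ u.2.2 K m z.2.1 z.2.2

theorem cst_iff {Λ : ℝ} {u : Tri} {K k : ℕ} {z : Pt} :
    cst Λ u K k z ↔ ∃ m, k ≤ m ∧ m ≤ K ∧ bgc Λ u K m z := by
  unfold cst sst bgc
  constructor
  · rintro (⟨m, h1, h2, h3⟩ | ⟨m, h1, h2, h3⟩ | ⟨m, h1, h2, h3⟩)
    · exact ⟨m, h1, h2, Or.inl h3⟩
    · exact ⟨m, h1, h2, Or.inr (Or.inl h3)⟩
    · exact ⟨m, h1, h2, Or.inr (Or.inr h3)⟩
  · rintro ⟨m, h1, h2, h3 | h3 | h3⟩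
    · exact Or.inl ⟨m, h1, h2, h3⟩
    · exact Or.inr (Or.inl ⟨m, h1, h2, h3⟩)
    · exact Or.inr (Or.inr ⟨m, h1, h2, h3⟩)

theorem bgc_congr (Λ : ℝ) (u : Tri) (K : ℕ) : ∀ k ≤ K, ∀ z z' : Pt, z' ∈ gz.cube k z →
    (bgc Λ u K k z' ↔ bgc Λ u K k z) := by
  intro k hk z z' hz
  have h1 := mem_cube3.mp hz
  have h2 := mem_cube3.mp (gz.sub_le hk z hz)
  unfold bgc
  rw [bg_congr1 u.1 hk h1.1 h1.2.1 h2.1 h2.2.1, bg_congr1 u.2.1 hk h1.1 h1.2.2 h2.1 h2.2.2,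
    bg_congr1 u.2.2 hk h1.2.1 h1.2.2 h2.2.1 h2.2.2]

theorem not_bg {Λ : ℝ} (hΛ : 1 ≤ Λ) (a : ℤ × ℤ → ℝ) (K : ℕ) (s t : ℤ) : ¬ bg Λ a K K s t := by
  have h1 := A2_nonneg K a s t
  have h2 := A4_nonneg1 K a s t
  unfold bg
  rintro (h | h) <;> nlinarith

theorem not_bgc {Λ : ℝ} (hΛ : 1 ≤ Λ) (u : Tri) (K : ℕ) : ∀ z, ¬ bgc Λ u K K z := by
  intro z h
  rcases h with h | h | h
  · exact not_bg hΛ _ _ _ _ h
  · exact not_bg hΛ _ _ _ _ h
  · exact not_bg hΛ _ _ _ _ h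

/-- the stopping rule -/
def rlP {Λ : ℝ} (hΛ : 1 ≤ Λ) (u : Tri) (K : ℕ) : Rule gz K :=
  ofCond gz K (bgc Λ u K) (bgc_congr Λ u K) (not_bgc hΛ u K)

theorem rlP_S {Λ : ℝ} (hΛ : 1 ≤ Λ) (u : Tri) (K k : ℕ) (z : Pt) :
    (rlP hΛ u K).S k z ↔ cst Λ u K k z := cst_iff.symm

theorem n2_of_bg {L : ℝ} (hL : 1 ≤ L) {a : ℤ × ℤ → ℝ} {K m : ℕ} {s t s' t' : ℤ}
    (h : bg (L ^ 4) a K m s t) (hs : s ∈ H315.iv K s') (ht : t ∈ H315.iv K t') :
    L * n2 (H315.iv K s' ×ˢ H315.iv K t') a ≤ n2 (H315.iv m s ×ˢ H315.iv m t) a ∨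
    L * n4 (H315.iv K s' ×ˢ H315.iv K t') a ≤ n4 (H315.iv m s ×ˢ H315.iv m t) a := by
  have hL0 : 0 ≤ L := by linarith
  unfold bg at h
  rw [H990.A2_congr a hs ht, A4_congr1 a hs ht] at h
  have h2 : ∀ (k : ℕ) (x y : ℤ), n2 (H315.iv k x ×ˢ H315.iv k y) a = √(A2 k a x y) :=
    fun k x y => rfl
  have h4 : ∀ (k : ℕ) (x y : ℤ), n4 (H315.iv k x ×ˢ H315.iv k y) a = √√(A4 k a x y) :=
    fun k x y => rfl
  rcases h with h | h
  · left
    rw [h2, h2]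
    refine Real.le_sqrt_of_sq_le ?_
    rw [mul_pow, Real.sq_sqrt (A2_nonneg _ _ _ _)]
    refine le_trans ?_ h.le
    refine mul_le_mul_of_nonneg_right ?_ (A2_nonneg _ _ _ _)
    exact pow_le_pow_right₀ hL (by norm_num)
  · right
    rw [h4, h4]
    refine Real.le_sqrt_of_sq_le (Real.le_sqrt_of_sq_le ?_)
    rw [mul_pow, mul_pow, ← pow_mul, ← pow_mul]
    have e : √√(A4 K a s' t') ^ (2 * 2) = A4 K a s' t' := by
      rw [pow_mul, Real.sq_sqrt (Real.sqrt_nonneg _), Real.sq_sqrt (A4_nonneg1 _ _ _ _)]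
    rw [e]
    exact h.le

theorem Big_of_cst {L : ℝ} (hL : 1 ≤ L) {u : Tri} {K : ℕ} {x z : Pt} (hz : z ∈ cube3 K x)
    (h : cst (L ^ 4) u K 0 z) : Big L K u x z := by
  obtain ⟨m, -, hm, hb⟩ := cst_iff.1 h
  have hm' := mem_cube3.1 hz
  refine big_of (j := m) hm ?_
  rw [n2_e12, n2_e12, n4_e12, n4_e12, n2_e13, n2_e13, n4_e13, n4_e13, n2_e23, n2_e23, n4_e23,
    n4_e23]
  rcases hb with hb | hb | hb
  · rcases n2_of_bg hL hb hm'.1 hm'.2.1 with h1 | h1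
    · exact Or.inl h1
    · exact Or.inr (Or.inl h1)
  · rcases n2_of_bg hL hb hm'.1 hm'.2.2 with h1 | h1
    · exact Or.inr (Or.inr (Or.inl h1))
    · exact Or.inr (Or.inr (Or.inr (Or.inl h1)))
  · rcases n2_of_bg hL hb hm'.2.1 hm'.2.2 with h1 | h1
    · exact Or.inr (Or.inr (Or.inr (Or.inr (Or.inl h1))))
    · exact Or.inr (Or.inr (Or.inr (Or.inr (Or.inr h1))))

/-- **The stopped weight.** -/
theorem stopped_weightP {L : ℝ} (hL : 1 ≤ L) (hL' : 1153 ^ 3 * L ^ (-(1 / 60) : ℝ) ≤ 1 / 2)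
    (hΛ : 1 ≤ L ^ 4) (u : Tri) (K : ℕ) (x : Pt) :
    ∑ z ∈ cube3 K x with cst (L ^ 4) u K 0 z, pw3 (cube3 ((rlP hΛ u K).m z) z) u ≤
      1 / 2 * ((cube3 K x).card * pw3 (cube3 K x) u) := by
  have h1 : ∑ z ∈ cube3 K x with cst (L ^ 4) u K 0 z, pw3 (cube3 ((rlP hΛ u K).m z) z) u ≤
      ∑ z ∈ cube3 K x with cst (L ^ 4) u K 0 z, pM K u 0 z := by
    refine sum_le_sum fun z hz => ?_
    rw [mem_filter] at hz
    have hlt := (rlP hΛ u K).m_lt ((rlP_S hΛ u K 0 z).2 hz.2)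
    exact pw3_le_pM u (Nat.zero_le _) hlt.le z
  have h2 := tail_pM_card hL K u x (filter_subset (fun z => cst (L ^ 4) u K 0 z) (cube3 K x))
    fun q hq => Big_of_cst hL (mem_filter.1 hq).1 (mem_filter.1 hq).2
  refine h1.trans (h2.trans ?_)
  rw [mul_assoc]
  exact mul_le_mul_of_nonneg_right hL' (mul_nonneg (Nat.cast_nonneg _) (pw3_nonneg _ _))

/-- **EN1.** -/
theorem genSt_of {L : ℝ} (hL : 1 ≤ L) (hL' : 1153 ^ 3 * L ^ (-(1 / 60) : ℝ) ≤ 1 / 2) :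
    GenSt (L ^ 4) := by
  have hΛ : 1 ≤ L ^ 4 := one_le_pow₀ hL
  intro P0 hP0 u c n h K
  induction K using Nat.strong_induction_on with
  | _ K ih =>
    intro hK x
    set R := rlP hΛ u K with hR
    have e1 : ∑ k ∈ range (K + 1), ∑ z ∈ cube3 K x, c k z =
        (∑ k ∈ range (K + 1), ∑ z ∈ cube3 K x with ¬ cst (L ^ 4) u K k z, c k z) +
        ∑ k ∈ range (K + 1), ∑ z ∈ cube3 K x with cst (L ^ 4) u K k z, c k z := by
      rw [← sum_add_distrib]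
      refine sum_congr rfl fun k _ => ?_
      rw [add_comm]
      exact (sum_filter_add_sum_filter_not _ _ _).symm
    have e2 : ∑ k ∈ range (K + 1), ∑ z ∈ cube3 K x with cst (L ^ 4) u K k z, c k z =
        ∑ z ∈ gz.cube K x with R.S 0 z, ∑ k ∈ range (R.m z + 1), c k z := by
      have e3 : ∀ k ∈ range (K + 1), ∑ z ∈ cube3 K x with cst (L ^ 4) u K k z, c k z =
          ∑ z ∈ gz.cube K x with R.S 0 z, if k ≤ R.m z then c k z else 0 := by
        intro k _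
        rw [← sum_filter, filter_filter]
        refine sum_congr ?_ fun _ _ => rfl
        ext z
        simp only [mem_filter]
        refine and_congr_right fun _ => ?_
        constructor
        · intro hs
          have hs' := (rlP_S hΛ u K k z).2 hs
          exact ⟨R.mono_le (Nat.zero_le k) hs', R.le_m hs'⟩
        · rintro ⟨hs, hk⟩
          exact (rlP_S hΛ u K k z).1 (R.mono_le hk (R.S_m hs))
      rw [sum_congr rfl e3, sum_comm]
      refine sum_congr rfl fun z hz => ?_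
      have hlt := R.m_lt (mem_filter.mp hz).2
      rw [← sum_filter]
      refine sum_congr ?_ fun _ _ => rfl
      ext k
      simp only [mem_filter, mem_range]
      omega
    have e4 : ∑ z ∈ gz.cube K x with R.S 0 z, ∑ k ∈ range (R.m z + 1), c k z ≤
        ∑ z ∈ gz.cube K x with R.S 0 z, 2 * P0 * pw3 (cube3 (R.m z) z) u := by
      refine R.sum_stopped_le (k₀ := K) le_rfl (a := fun m z => ∑ k ∈ range (m + 1), c k z)
        (b := fun m z => 2 * P0 * pw3 (cube3 m z) u) fun k hk y _ => ?_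
      have h3 := ih k hk (by omega) y
      rw [sum_comm] at h3
      refine h3.trans_eq ?_
      have h4 : ∀ z ∈ gz.cube k y, 2 * P0 * pw3 (cube3 k z) u = 2 * P0 * pw3 (cube3 k y) u :=
        fun z hz => by rw [show cube3 k z = cube3 k y from gz.eq_of_mem k y z hz]
      rw [sum_congr rfl h4, sum_const, nsmul_eq_mul]
      unfold wP
      show _ = ((cube3 k y).card : ℝ) * _
      ring
    have e5 : ∑ z ∈ gz.cube K x with R.S 0 z, 2 * P0 * pw3 (cube3 (R.m z) z) u ≤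
        P0 * wP 1 (cube3 K x) u := by
      rw [← mul_sum]
      have h5 := stopped_weightP hL hL' hΛ u K x
      have h6 : ∑ z ∈ gz.cube K x with R.S 0 z, pw3 (cube3 (R.m z) z) u =
          ∑ z ∈ cube3 K x with cst (L ^ 4) u K 0 z, pw3 (cube3 ((rlP hΛ u K).m z) z) u := by
        refine sum_congr ?_ fun _ _ => rfl
        ext z
        simp only [mem_filter]
        exact and_congr_right fun _ => rlP_S hΛ u K 0 z
      rw [h6]
      have h7 := mul_le_mul_of_nonneg_left h5 (by positivity : 0 ≤ 2 * P0)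
      refine h7.trans_eq ?_
      unfold wP
      ring
    rw [e1, e2]
    calc _ ≤ P0 * wP 1 (cube3 K x) u + P0 * wP 1 (cube3 K x) u :=
          add_le_add (h K hK x) (e4.trans e5)
      _ = _ := by ring

/-- the threshold of the stopping -/
def Lam0 : ℝ := ((2 * 1153 ^ 3) ^ 60) ^ 4

theorem genSt : GenSt Lam0 := by
  refine genSt_of (L := (2 * 1153 ^ 3) ^ 60) (one_le_pow₀ (by norm_num)) ?_
  have h : (((2 * 1153 ^ 3 : ℝ)) ^ 60) ^ (-(1 / 60) : ℝ) = (2 * 1153 ^ 3)⁻¹ := by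
    rw [Real.rpow_neg (by positivity), ← Real.rpow_natCast, ← Real.rpow_mul (by positivity)]
    norm_num
  rw [h]
  norm_num

theorem one_le_Lam0 : 1 ≤ Lam0 := one_le_pow₀ (one_le_pow₀ (by norm_num))

end

end Vale.Agent.P141.H48
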