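import Vale.Agent.P141.H48.ENdefs
import Vale.Agent.P141.H498.En4
import Vale.Agent.P141.PL.H990.Main
import Vale.Agent.P141.PL.H317.CostIx
import Vale.Agent.P141.H922.PairS1

/-!
# P141, line W, squad EN: (E) in the position of role `0`, static third slot `F2`
-/

namespace Vale.Agent.P141.H48

open Finset Vale.Agent.P141.PL
open Vale.Agent.P141.PL.H315 (cube3 atm Tri A2 A2_nonneg avg avg_nonneg e12 e13 e23 card_cube3)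
open Vale.Agent.P141.PL.H560 (cbs bx0)
open Vale.Agent.P141.H922 (n2 n4 nN pw3 wP n2_nonneg n4_nonneg wP_nonneg n2_e12 n2_e13 n2_e23
  n4_e12 n4_e13 n4_e23 nN_e12 nN_e13 nN_e23)
open Vale.Agent.P141.H958 (Aff PackQ s4 pwr pwr_nonneg)
open Vale.Agent.P141.H736 (Path)
open Vale.Agent.P141.PL.H804 (bx3)
open Vale.Agent.P141.PL.H588 (Pl)
open Vale.Agent.P141.H498 (prf pwn en4)
open Vale.Agent.P141.PL.H317 (i0 crn ed abs_loc_le sum_cube_cx L0_eq)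
open Vale.Agent.P141.PL.H997 (mat)
open Vale.Agent.P141.PL.H990 (X0 regroup pl_of card_X0)

noncomputable section

open scoped Classical

/-- **The engine for a finite family of planes.** -/
def EngF (C : ℝ) : Prop :=
  ∀ (N : ℕ) (R : Pt) (X : Finset ℤ) (c : ℤ → ℕ → ℤ), (∀ i ∈ X, Pl (c i)) →
  ∀ (s : ℤ → ℕ → Finset Pt), (∀ i ∈ X, ∀ k ∈ Icc 1 N, s i k ⊆ bx3 N R k (c i k)) →
  ∀ (A B H : ℤ → ℕ → ℤ → ℤ → ℝ) (QA QB QH : ℤ → ℕ → ℤ → ℤ → Prop)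
    (cP GA GB GH DA DB DH : ℝ), 1 ≤ cP → 0 < GA → 0 < GB → 0 < GH → 0 < DA → 0 < DB → 0 < DH →
    (∀ i ∈ X, Path N R.1 R.2.1 (QA i) (A i) ∧ A i 0 = 0 ∧ PackQ N R.1 R.2.1 (QA i) cP) →
    (∀ i ∈ X, Path N R.2.1 R.2.2 (QB i) (B i) ∧ B i 0 = 0 ∧ PackQ N R.2.1 R.2.2 (QB i) cP) →
    (∀ i ∈ X, Path N R.1 R.2.2 (QH i) (H i) ∧ H i 0 = 0 ∧ PackQ N R.1 R.2.2 (QH i) cP) →
    ∑ i ∈ X, own4 N R.1 R.2.1 (QA i) (A i) ≤ GA → ∑ i ∈ X, pwr N R.1 R.2.1 (QA i) (A i) ≤ DA →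
    ∑ i ∈ X, own4 N R.2.1 R.2.2 (QB i) (B i) ≤ GB →
    ∑ i ∈ X, pwr N R.2.1 R.2.2 (QB i) (B i) ≤ DB →
    ∑ i ∈ X, own4 N R.1 R.2.2 (QH i) (H i) ≤ GH → ∑ i ∈ X, pwr N R.1 R.2.2 (QH i) (H i) ≤ DH →
    ∑ i ∈ X, ∑ k ∈ Icc 1 N, (2 ^ k : ℝ)⁻¹ * ∑ m ∈ s i k, |tri k m (A i k) (B i k) (H i k)| ≤
      C * cP * prf GA GB GH DA DB DH

/-! ### Elementary facts on the stopping -/

theorem A2_congr' {k : ℕ} (a : ℤ × ℤ → ℝ) {s s' t t' : ℤ} (hs : ix k s' = ix k s)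
    (ht : ix k t' = ix k t) : A2 k a s' t' = A2 k a s t := by
  have e : ∀ x y : ℤ, ix k x = ix k y → H315.iv k x = H315.iv k y := fun x y h => by
    rw [H317.iv_eq_iv, H317.iv_eq_iv, h]
  unfold A2; rw [e _ _ hs, e _ _ ht]

theorem A4_congr {k : ℕ} (a : ℤ × ℤ → ℝ) {s s' t t' : ℤ} (hs : ix k s' = ix k s)
    (ht : ix k t' = ix k t) : A4 k a s' t' = A4 k a s t := by
  have e : ∀ x y : ℤ, ix k x = ix k y → H315.iv k x = H315.iv k y := fun x y h => by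
    rw [H317.iv_eq_iv, H317.iv_eq_iv, h]
  unfold A4; rw [e _ _ hs, e _ _ ht]

theorem ix_mono {k l : ℕ} (h : k ≤ l) {x y : ℤ} (hxy : ix k x = ix k y) : ix l x = ix l y := by
  have e : l = k + (l - k) := by omega
  rw [e, ← ix_ix, hxy, ix_ix]

theorem sst_congr {Λ : ℝ} (a : ℤ × ℤ → ℝ) {K k : ℕ} {s s' t t' : ℤ} (hs : ix k s' = ix k s)
    (ht : ix k t' = ix k t) : sst Λ a K k s' t' ↔ sst Λ a K k s t := by
  have key : ∀ s s' t t' : ℤ, ix k s' = ix k s → ix k t' = ix k t → sst Λ a K k s' t' →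
      sst Λ a K k s t := by
    intro s s' t t' hs ht
    rintro ⟨m, h1, h2, h3⟩
    refine ⟨m, h1, h2, ?_⟩
    unfold bg at h3 ⊢
    have hK : k ≤ K := h1.trans h2
    rwa [A2_congr' a (ix_mono h1 hs) (ix_mono h1 ht), A2_congr' a (ix_mono hK hs) (ix_mono hK ht),
      A4_congr a (ix_mono h1 hs) (ix_mono h1 ht), A4_congr a (ix_mono hK hs) (ix_mono hK ht)] at h3
  exact ⟨key _ _ _ _ hs ht, key _ _ _ _ hs.symm ht.symm⟩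

theorem ix_corner (k : ℕ) (a : ℤ) : ix k (2 ^ k * a) = a := by
  unfold ix
  exact Int.mul_ediv_cancel_left _ (by positivity)

/-- on a cube which is not stopped the killed slices are the slices -/
theorem tri_pth {Λ : ℝ} {u : Tri} {K k : ℕ} (hk : 1 ≤ k) {m : Pt}
    (h : ¬ cst Λ u K k (crn k m)) (F1 F2 F3 : ℕ → Pt → ℝ) (x0 : ℤ) :
    tri k m (mat (ed u.1) F3 x0 k) (mat (ed u.2.2) F1 x0 k) (mat (ed u.2.1) F2 x0 k) =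
      tri k m (pth Λ u.1 K F3 x0 k) (pth Λ u.2.2 K F1 x0 k) (pth Λ u.2.1 K F2 x0 k) := by
  unfold cst crn at h
  push Not at h
  obtain ⟨h1, h2, h3⟩ := h
  have key : ∀ (a : ℤ × ℤ → ℝ) (F : ℕ → Pt → ℝ) (r s x y : ℤ),
      ¬ sst Λ a K k (2 ^ k * r) (2 ^ k * s) → x ∈ iv k r → y ∈ iv k s →
      mat (ed a) F x0 k x y = pth Λ a K F x0 k x y := by
    intro a F r s x y hs hx hy
    rw [mem_iv] at hx hy
    have hn : ¬ sst Λ a K k x y := by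
      rwa [sst_congr a (s := 2 ^ k * r) (t := 2 ^ k * s) (by rw [ix_corner, hx])
        (by rw [ix_corner, hy])]
    unfold pth mat ed
    rw [if_neg]
    rintro (h | h)
    · omega
    · exact hn h
  unfold tri
  refine sum_congr rfl fun x1 hx1 => sum_congr rfl fun x2 hx2 => sum_congr rfl fun x3 hx3 => ?_
  rw [key u.1 F3 m.1 m.2.1 x1 x2 h1 hx1 hx2, key u.2.2 F1 m.2.1 m.2.2 x2 x3 h3 hx2 hx3,
    key u.2.1 F2 m.1 m.2.2 x1 x3 h2 hx1 hx3]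

theorem bx0_eq (o : ℤ) (m : Pt) : bx0 o m = (i0 o m, m) := by
  unfold bx0 H317.i0
  congr 1
  ring

/-- the sum over all `x₀` of a root cube -/
def XX (K : ℕ) (M : Pt) : Finset ℤ := (X0 M).biUnion fun t => iv K t

theorem sum_XX (K : ℕ) (M : Pt) (f : ℤ → ℝ) :
    ∑ x0 ∈ XX K M, f x0 = ∑ t ∈ X0 M, ∑ x0 ∈ iv K t, f x0 := by
  unfold XX
  rw [sum_biUnion]
  intro a _ b _ hab
  rw [Function.onFun, disjoint_left]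
  intro x hx hx'
  rw [mem_iv] at hx hx'
  exact hab (hx.symm.trans hx')

theorem A2_eq (k : ℕ) (a : ℤ × ℤ → ℝ) (s t : ℤ) :
    A2 k a s t = n2 (H315.iv k s ×ˢ H315.iv k t) a ^ 2 := by
  rw [H922.n2_sq]; rfl

theorem A4_eq (k : ℕ) (a : ℤ × ℤ → ℝ) (s t : ℤ) :
    √(A4 k a s t) = n4 (H315.iv k s ×ˢ H315.iv k t) a ^ 2 := by
  rw [H922.n4_sq]; rfl

theorem own4_nn (N : ℕ) (R S : ℤ) (Q : ℕ → ℤ → ℤ → Prop) (F : ℕ → ℤ → ℤ → ℝ) :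
    0 ≤ own4 N R S Q F := sum_nonneg fun _ _ => mul_nonneg (by positivity) (H958.s4_nonneg ..)

/-- summed fourth power energies -/
def GS (Λ : ℝ) (K : ℕ) (x : Pt) (s t : ℤ) (a : ℤ × ℤ → ℝ) (Q : ℕ → Pt → Prop)
    (F : ℕ → Pt → ℝ) : ℝ :=
  ∑ x0 ∈ XX K (cx K x), own4 K (ix K s) (ix K t) (Qth Λ a K Q x0) (pth Λ a K F x0)

/-- summed square energies -/
def DS (Λ : ℝ) (K : ℕ) (x : Pt) (s t : ℤ) (a : ℤ × ℤ → ℝ) (Q : ℕ → Pt → Prop)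
    (F : ℕ → Pt → ℝ) : ℝ :=
  ∑ x0 ∈ XX K (cx K x), pwr K (ix K s) (ix K t) (Qth Λ a K Q x0) (pth Λ a K F x0)

theorem GS_nonneg (Λ : ℝ) (K : ℕ) (x : Pt) (s t : ℤ) (a : ℤ × ℤ → ℝ) (Q : ℕ → Pt → Prop)
    (F : ℕ → Pt → ℝ) : 0 ≤ GS Λ K x s t a Q F := sum_nonneg fun _ _ => own4_nn ..

theorem DS_nonneg (Λ : ℝ) (K : ℕ) (x : Pt) (s t : ℤ) (a : ℤ × ℤ → ℝ) (Q : ℕ → Pt → Prop)
    (F : ℕ → Pt → ℝ) : 0 ≤ DS Λ K x s t a Q F := sum_nonneg fun _ _ => pwr_nonneg ..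

/-- the norms on the side square of scale `K` -/
def s2 (K : ℕ) (s t : ℤ) (a : ℤ × ℤ → ℝ) : ℝ := n2 (H315.iv K s ×ˢ H315.iv K t) a

/-- the norms on the side square of scale `K` -/
def s4n (K : ℕ) (s t : ℤ) (a : ℤ × ℤ → ℝ) : ℝ := n4 (H315.iv K s ×ˢ H315.iv K t) a

theorem s2_nonneg (K : ℕ) (s t : ℤ) (a : ℤ × ℤ → ℝ) : 0 ≤ s2 K s t a := n2_nonneg _ _

theorem s4n_nonneg (K : ℕ) (s t : ℤ) (a : ℤ × ℤ → ℝ) : 0 ≤ s4n K s t a := n4_nonneg _ _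

theorem wP_sq (K : ℕ) (x : Pt) (u : Tri) : wP 1 (cube3 K x) u = 8 ^ K *
    pwn (s2 K x.1 x.2.1 u.1) (s4n K x.1 x.2.1 u.1) (s2 K x.2.1 x.2.2 u.2.2)
      (s4n K x.2.1 x.2.2 u.2.2) (s2 K x.1 x.2.2 u.2.1) (s4n K x.1 x.2.2 u.2.1) := by
  unfold wP pw3 pwn s2 s4n
  rw [card_cube3, nN_e12, nN_e13, nN_e23, n2_e12, n2_e13, n2_e23]
  unfold nN
  push_cast
  ring

/-- the summed own energies -/
theorem sum_own {Λ : ℝ} (hO : OwnSt Λ) {n : ℕ} {e cP M : ℝ} {F : ℕ → Pt → ℝ}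
    {Q : ℕ → Pt → Prop} (hcP : 0 ≤ cP) (he : 0 ≤ e) (hM : 0 ≤ M) (hB : BSl n e cP F Q)
    (hM4 : Mo4 n M F) {K : ℕ} (hK : K ≤ n) (a : ℤ × ℤ → ℝ) (x : Pt) (s t : ℤ) :
    GS Λ K x s t a Q F ≤ 3 * (8 * Λ ^ 2 * (cP + 2) * M * (s2 K s t a * s4n K s t a) ^ 2 * 8 ^ K) ∧
    DS Λ K x s t a Q F ≤ 3 * (4 * Λ * (cP + 2) * e * s2 K s t a ^ 2 * 8 ^ K) := by
  have h := fun t0 => hO n e cP M F Q hcP he hM hB hM4 K hK a s t t0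
  rw [A2_eq, A4_eq] at h
  unfold GS DS
  rw [sum_XX, sum_XX]
  constructor
  · refine (sum_le_sum fun t0 _ => (h t0).1).trans (le_of_eq ?_)
    rw [sum_const, card_X0, nsmul_eq_mul]
    unfold s2 s4n
    push_cast
    ring
  · refine (sum_le_sum fun t0 _ => (h t0).2).trans (le_of_eq ?_)
    rw [sum_const, card_X0, nsmul_eq_mul]
    unfold s2
    push_cast
    ring

/-- the two moments of a uniform slot, the trivial moment of an `L²` slot -/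
structure SlM (n : ℕ) (t e K0 cP : ℝ) (F : ℕ → Pt → ℝ) (Q : ℕ → Pt → Prop) : Prop where
  b : BSl n e cP F Q
  m0 : Mo4 n (e ^ 2) F
  m1 : Mo4 n (K0 * (t ^ 2 * e)) F

/-- the constant of the energies -/
def cE (Λ cP K0 : ℝ) : ℝ := 24 * Λ ^ 2 * (cP + 2) * (1 + K0)

theorem cE_nonneg {Λ cP K0 : ℝ} (hcP : 0 ≤ cP) (hK0 : 0 ≤ K0) : 0 ≤ cE Λ cP K0 := by
  unfold cE; positivity

theorem big4 {Λ cP K0 : ℝ} (hcP : 0 ≤ cP) {K : ℕ} {X Mo N E : ℝ} (hN : 0 ≤ N)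
    (h : X ≤ 3 * (8 * Λ ^ 2 * (cP + 2) * Mo * N * 8 ^ K)) (h' : Mo ≤ (1 + K0) * E) :
    X ≤ 8 ^ K * (cE Λ cP K0 * (E * N)) := by
  refine h.trans ?_
  have h5 : (0 : ℝ) ≤ 3 * (8 * Λ ^ 2 * (cP + 2)) * N * 8 ^ K := by positivity
  have h6 := mul_le_mul_of_nonneg_left h' h5
  unfold cE
  linarith

theorem big2 {Λ cP K0 : ℝ} (hΛ : 1 ≤ Λ) (hcP : 0 ≤ cP) (hK0 : 0 ≤ K0) {K : ℕ} {X N E : ℝ}
    (hN : 0 ≤ N) (hE : 0 ≤ E) (h : X ≤ 3 * (4 * Λ * (cP + 2) * E * N * 8 ^ K)) :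
    X ≤ 8 ^ K * (cE Λ cP K0 * (E * N)) := by
  refine h.trans ?_
  have h5 : (0 : ℝ) ≤ (cP + 2) * E * N * 8 ^ K := by positivity
  have h6 : 12 * Λ ≤ 24 * Λ ^ 2 * (1 + K0) := by
    have : 24 * Λ ^ 2 ≤ 24 * Λ ^ 2 * (1 + K0) := by
      have h7 : 0 ≤ 24 * Λ ^ 2 * K0 := by positivity
      linarith
    nlinarith
  have h7 := mul_le_mul_of_nonneg_right h6 h5
  unfold cE
  linarith

/-- the cost of one generation, regrouped -/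
def cgen (Λ : ℝ) (o : ℤ) (K : ℕ) (x : Pt) (u : Tri) (F1 F2 F3 : ℕ → Pt → ℝ) : ℝ :=
  ∑ x0 ∈ XX K (cx K x), ∑ k ∈ Icc 1 K, (2 ^ k : ℝ)⁻¹ *
    ∑ m ∈ (H317.cbs K (cx K x) k).filter (fun m => m.1 + m.2.1 + m.2.2 = o - 2 - ix k x0),
      |tri k m (pth Λ u.1 K F3 x0 k) (pth Λ u.2.2 K F1 x0 k) (pth Λ u.2.1 K F2 x0 k)|

theorem gen_le_cgen (Λ : ℝ) {o : ℤ} (ho : |o| = 1) (K : ℕ) (x : Pt) (u : Tri)
    (F1 F2 F3 : ℕ → Pt → ℝ) :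
    ∑ k ∈ Icc 1 K, (2 ^ k : ℝ)⁻¹ * ∑ m ∈ cbs K (cx K x) k with ¬ cst Λ u K k (crn k m),
      |loc k (bx0 o m) (atm u) (F1 k) (F2 k) (F3 k)| ≤ cgen Λ o K x u F1 F2 F3 := by
  have step1 : ∑ k ∈ Icc 1 K, (2 ^ k : ℝ)⁻¹ * ∑ m ∈ cbs K (cx K x) k with ¬ cst Λ u K k (crn k m),
      |loc k (bx0 o m) (atm u) (F1 k) (F2 k) (F3 k)| ≤
      ∑ k ∈ Icc 1 K, (2 ^ k : ℝ)⁻¹ * ∑ m ∈ H317.cbs K (cx K x) k, ∑ x0 ∈ iv k (i0 o m),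
        |tri k m (pth Λ u.1 K F3 x0 k) (pth Λ u.2.2 K F1 x0 k) (pth Λ u.2.1 K F2 x0 k)| := by
    refine sum_le_sum fun k hk => mul_le_mul_of_nonneg_left ?_ (by positivity)
    have e0 : cbs K (cx K x) k = H317.cbs K (cx K x) k := rfl
    rw [e0]
    refine le_trans (sum_le_sum fun m hm => ?_) (sum_le_sum_of_subset_of_nonneg
      (filter_subset _ _) fun m _ _ => sum_nonneg fun _ _ => abs_nonneg _)
    rw [bx0_eq]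
    refine (abs_loc_le k o m u F1 F2 F3).trans (le_of_eq ?_)
    refine sum_congr rfl fun x0 _ => ?_
    rw [tri_pth (mem_Icc.mp hk).1 (mem_filter.mp hm).2]
  refine step1.trans (le_of_eq ?_)
  rw [regroup (cx K x) (by rw [ho]) (fun k x0 m => |tri k m (pth Λ u.1 K F3 x0 k)
    (pth Λ u.2.2 K F1 x0 k) (pth Λ u.2.1 K F2 x0 k)|), ← sum_XX]
  rfl

/-- the engine for one generation -/
theorem cgen_le {Λ C : ℝ} (hE : EngF C) (hP : PthSt Λ) {n : ℕ} {e1 e2 e3 cP : ℝ} (hcP : 0 ≤ cP)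
    {F1 F2 F3 : ℕ → Pt → ℝ} {Q1 Q2 Q3 : ℕ → Pt → Prop} (h1 : BSl n e1 cP F1 Q1)
    (h3 : BSl n e3 cP F3 Q3) (h2 : BSl n e2 cP F2 Q2) {o : ℤ}
    (ho : |o| = 1) {K : ℕ} (hK : K ≤ n) (x : Pt) (u : Tri) (gA gB gC dA dB dC : ℝ)
    (hgA : GS Λ K x x.1 x.2.1 u.1 Q3 F3 < gA) (hgB : GS Λ K x x.2.1 x.2.2 u.2.2 Q1 F1 < gB)
    (hgC : GS Λ K x x.1 x.2.2 u.2.1 Q2 F2 < gC) (hdA : DS Λ K x x.1 x.2.1 u.1 Q3 F3 < dA)
    (hdB : DS Λ K x x.2.1 x.2.2 u.2.2 Q1 F1 < dB) (hdC : DS Λ K x x.1 x.2.2 u.2.1 Q2 F2 < dC) :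
    cgen Λ o K x u F1 F2 F3 ≤ (C * (cP + 2)) * prf gA gB gC dA dB dC :=
  hE K (cx K x) (XX K (cx K x)) (fun x0 k => o - 2 - ix k x0)
    (fun x0 _ => pl_of o x0 (by rw [ho]))
    (fun x0 k => (H317.cbs K (cx K x) k).filter fun m => m.1 + m.2.1 + m.2.2 = o - 2 - ix k x0)
    (fun x0 _ k _ => le_of_eq rfl) (fun x0 => pth Λ u.1 K F3 x0) (fun x0 => pth Λ u.2.2 K F1 x0)
    (fun x0 => pth Λ u.2.1 K F2 x0) (fun x0 => Qth Λ u.1 K Q3 x0)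
    (fun x0 => Qth Λ u.2.2 K Q1 x0) (fun x0 => Qth Λ u.2.1 K Q2 x0) (cP + 2) gA gB gC dA dB dC
    (by linarith) ((GS_nonneg ..).trans_lt hgA) ((GS_nonneg ..).trans_lt hgB)
    ((GS_nonneg ..).trans_lt hgC) ((DS_nonneg ..).trans_lt hdA) ((DS_nonneg ..).trans_lt hdB)
    ((DS_nonneg ..).trans_lt hdC)
    (fun x0 _ => hP n e3 cP F3 Q3 hcP h3 K hK u.1 x.1 x.2.1 x0)
    (fun x0 _ => hP n e1 cP F1 Q1 hcP h1 K hK u.2.2 x.2.1 x.2.2 x0)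
    (fun x0 _ => hP n e2 cP F2 Q2 hcP h2 K hK u.2.1 x.1 x.2.2 x0)
    hgA.le hdA.le hgB.le hdB.le hgC.le hdC.le

/-- the constant of one generation -/
def cG (Λ cP K0 C ε : ℝ) : ℝ := C * (cP + 2) * ((1 + ε⁻¹) * cE Λ cP K0)

theorem cG_nonneg {Λ cP K0 C ε : ℝ} (hcP : 0 ≤ cP) (hK0 : 0 ≤ K0) (hC : 0 ≤ C) (hε : 0 < ε) :
    0 ≤ cG Λ cP K0 C ε := by
  have := cE_nonneg (Λ := Λ) hcP hK0
  unfold cG; positivity

theorem ep0 (K0 : ℝ) (hK0 : 0 ≤ K0) (e : ℝ) : e ^ 2 ≤ (1 + K0) * e ^ 2 := by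
  nlinarith [sq_nonneg e, mul_nonneg hK0 (sq_nonneg e)]

theorem ep1 (K0 : ℝ) {t e : ℝ} (he : 0 ≤ e) : K0 * (t ^ 2 * e) ≤ (1 + K0) * (t ^ 2 * e) := by
  have : 0 ≤ t ^ 2 * e := by positivity
  linarith

/-- **One generation.** -/
theorem gen_one {Λ C : ℝ} (hΛ : 1 ≤ Λ) (hC : 0 ≤ C) (hE : EngF C) (hP : PthSt Λ) (hO : OwnSt Λ)
    {ε : ℝ} (hε : 0 < ε) (hε' : ε ≤ 1 / 4) {n : ℕ} {t1 t3 e1 e2 e3 K0 cP : ℝ} (hcP : 0 ≤ cP)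
    (hK0 : 0 ≤ K0) (ht1 : 0 ≤ t1) (ht3 : 0 ≤ t3) (he1 : 0 ≤ e1) (he2 : 0 ≤ e2) (he3 : 0 ≤ e3)
    {F1 F2 F3 : ℕ → Pt → ℝ} {Q1 Q2 Q3 : ℕ → Pt → Prop} (h1 : SlM n t1 e1 K0 cP F1 Q1)
    (h3 : SlM n t3 e3 K0 cP F3 Q3) (h2 : BSl n e2 cP F2 Q2) (h2m : Mo4 n (e2 ^ 2) F2) {o : ℤ}
    (ho : |o| = 1) {K : ℕ} (hK : K ≤ n) (x : Pt) (u : Tri) :
    ∑ k ∈ Icc 1 K, (2 ^ k : ℝ)⁻¹ * ∑ m ∈ cbs K (cx K x) k with ¬ cst Λ u K k (crn k m),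
      |loc k (bx0 o m) (atm u) (F1 k) (F2 k) (F3 k)| ≤
        cG Λ cP K0 C ε * prE ε t1 t3 e1 e3 e2 * wP 1 (cube3 K x) u := by
  refine (gen_le_cgen Λ ho K x u F1 F2 F3).trans ?_
  have o3 := sum_own hO hcP he3 (by positivity) h3.b h3.m0 hK u.1 x x.1 x.2.1
  have o3' := sum_own hO hcP he3 (M := K0 * (t3 ^ 2 * e3)) (by positivity) h3.b h3.m1 hK u.1 x x.1
    x.2.1
  have o1 := sum_own hO hcP he1 (by positivity) h1.b h1.m0 hK u.2.2 x x.2.1 x.2.2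
  have o1' := sum_own hO hcP he1 (M := K0 * (t1 ^ 2 * e1)) (by positivity) h1.b h1.m1 hK u.2.2 x
    x.2.1 x.2.2
  have o2 := sum_own hO hcP he2 (by positivity) h2 h2m hK u.2.1 x x.1 x.2.2
  have key := en4 ({()} : Finset Unit) (T := fun _ => cgen Λ o K x u F1 F2 F3)
    (GA := fun _ => GS Λ K x x.1 x.2.1 u.1 Q3 F3)
    (GB := fun _ => GS Λ K x x.2.1 x.2.2 u.2.2 Q1 F1)
    (GC := fun _ => GS Λ K x x.1 x.2.2 u.2.1 Q2 F2)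
    (DA := fun _ => DS Λ K x x.1 x.2.1 u.1 Q3 F3)
    (DB := fun _ => DS Λ K x x.2.1 x.2.2 u.2.2 Q1 F1)
    (DC := fun _ => DS Λ K x x.1 x.2.2 u.2.1 Q2 F2) (θ := ε) (K := C * (cP + 2)) (V := 8 ^ K)
    (c := cE Λ cP K0) (tA := t3) (tB := t1) (eA := e3) (eB := e1) (eC := e2)
    hε hε' (by positivity) (by positivity) (cE_nonneg hcP hK0) ht3 ht1 he3 he1 he2
    (s2_nonneg K x.1 x.2.1 u.1) (s4n_nonneg K x.1 x.2.1 u.1) (s2_nonneg K x.2.1 x.2.2 u.2.2)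
    (s4n_nonneg K x.2.1 x.2.2 u.2.2) (s2_nonneg K x.1 x.2.2 u.2.1) (s4n_nonneg K x.1 x.2.2 u.2.1)
    (fun _ _ => GS_nonneg ..) (fun _ _ => GS_nonneg ..) (fun _ _ => GS_nonneg ..)
    (fun _ _ => DS_nonneg ..) (fun _ _ => DS_nonneg ..) (fun _ _ => DS_nonneg ..)
    (fun _ _ gA gB gC dA dB dC g1 g2 g3 g4 g5 g6 =>
      cgen_le hE hP hcP h1.b h3.b h2 ho hK x u gA gB gC dA dB dC g1 g2 g3 g4 g5 g6)
    (by rw [sum_singleton]; exact big4 hcP (sq_nonneg _) o3'.1 (ep1 K0 he3))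
    (by rw [sum_singleton]; exact big4 hcP (sq_nonneg _) o3.1 (ep0 K0 hK0 e3))
    (by rw [sum_singleton]; exact big4 hcP (sq_nonneg _) o1'.1 (ep1 K0 he1))
    (by rw [sum_singleton]; exact big4 hcP (sq_nonneg _) o1.1 (ep0 K0 hK0 e1))
    (by rw [sum_singleton]; exact big4 hcP (sq_nonneg _) o2.1 (ep0 K0 hK0 e2))
    (by rw [sum_singleton]; exact big2 hΛ hcP hK0 (sq_nonneg _) he3 o3.2)
    (by rw [sum_singleton]; exact big2 hΛ hcP hK0 (sq_nonneg _) he1 o1.2)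
    (by rw [sum_singleton]; exact big2 hΛ hcP hK0 (sq_nonneg _) he2 o2.2)
  rw [sum_singleton] at key
  refine key.trans (le_of_eq ?_)
  rw [wP_sq]
  unfold cG prE
  rw [mul_comm t3 t1, mul_comm e3 e1]
  ring

/-! ### All generations -/

/-- the cost in normalised form -/
def cz (o : ℤ) (u : Tri) (F1 F2 F3 : ℕ → Pt → ℝ) (k : ℕ) (z : Pt) : ℝ :=
  if k = 0 then 0 else |L0 o k z u (F1 k) (F2 k) (F3 k)|

theorem sum_range_Icc (K : ℕ) {f : ℕ → ℝ} (h0 : f 0 = 0) :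
    ∑ k ∈ range (K + 1), f k = ∑ k ∈ Icc 1 K, f k := by
  rw [range_eq_Ico, sum_eq_sum_Ico_succ_bot (Nat.succ_pos K), h0, zero_add]
  refine sum_congr ?_ fun _ _ => rfl
  ext k
  simp only [mem_Ico, mem_Icc]
  omega

/-- sums over the points of a cube of the normalised cost, restricted by a cube condition -/
theorem sum_cz (o : ℤ) (u : Tri) (F1 F2 F3 : ℕ → Pt → ℝ) (K : ℕ) (x : Pt) (P : ℕ → Pt → Prop)
    [hd : ∀ k, DecidablePred (P k)] (hPc : ∀ k z, P k (crn k (cx k z)) ↔ P k z) :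
    ∑ k ∈ range (K + 1), ∑ z ∈ cube3 K x with P k z, cz o u F1 F2 F3 k z =
      ∑ k ∈ Icc 1 K, (2 ^ k : ℝ)⁻¹ * ∑ m ∈ cbs K (cx K x) k with P k (crn k m),
        |loc k (bx0 o m) (atm u) (F1 k) (F2 k) (F3 k)| := by
  rw [sum_range_Icc K (by simp [cz])]
  refine sum_congr rfl fun k hk => ?_
  rw [mem_Icc] at hk
  have hk0 : k ≠ 0 := by omega
  rw [sum_filter, sum_filter]
  have h1 := sum_cube_cx hk.2 x (fun m => if P k (crn k m) then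
    (16 ^ k : ℝ)⁻¹ * |loc k (bx0 o m) (atm u) (F1 k) (F2 k) (F3 k)| else 0)
  have h2 : ∀ z ∈ cube3 K x, (if P k z then cz o u F1 F2 F3 k z else 0) =
      if P k (crn k (cx k z)) then (16 ^ k : ℝ)⁻¹ *
        |loc k (bx0 o (cx k z)) (atm u) (F1 k) (F2 k) (F3 k)| else 0 := by
    intro z _
    simp only [hPc]
    unfold cz
    rw [if_neg hk0, L0_eq, abs_mul, abs_of_pos (by positivity : (0 : ℝ) < (16 ^ k : ℝ)⁻¹), bx0_eq]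
  have e0 : cbs K (cx K x) k = H317.cbs K (cx K x) k := rfl
  rw [sum_congr rfl h2, h1, mul_sum, mul_sum, e0]
  refine sum_congr rfl fun m _ => ?_
  split_ifs
  · have e2 : (16 : ℝ) ^ k = 8 ^ k * 2 ^ k := by rw [← mul_pow]; norm_num
    rw [e2]
    field_simp
  · simp

theorem cst_crn (Λ : ℝ) (u : Tri) (K k : ℕ) (z : Pt) :
    cst Λ u K k (crn k (cx k z)) ↔ cst Λ u K k z := by
  unfold cst crn cx
  simp only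
  rw [sst_congr u.1 (ix_corner k (ix k z.1)) (ix_corner k (ix k z.2.1)),
    sst_congr u.2.1 (ix_corner k (ix k z.1)) (ix_corner k (ix k z.2.2)),
    sst_congr u.2.2 (ix_corner k (ix k z.2.1)) (ix_corner k (ix k z.2.2))]

/-- **All generations.** -/
theorem cos0_le {Λ C : ℝ} (hΛ : 1 ≤ Λ) (hC : 0 ≤ C) (hG : GenSt Λ) (hE : EngF C) (hP : PthSt Λ)
    (hO : OwnSt Λ) {ε : ℝ} (hε : 0 < ε) (hε' : ε ≤ 1 / 4) {n : ℕ} {t1 t3 e1 e2 e3 K0 cP : ℝ}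
    (hcP : 0 ≤ cP) (hK0 : 0 ≤ K0) (ht1 : 0 ≤ t1) (ht3 : 0 ≤ t3) (he1 : 0 ≤ e1) (he2 : 0 ≤ e2)
    (he3 : 0 ≤ e3) {F1 F2 F3 : ℕ → Pt → ℝ} {Q1 Q2 Q3 : ℕ → Pt → Prop}
    (h1 : SlM n t1 e1 K0 cP F1 Q1) (h3 : SlM n t3 e3 K0 cP F3 Q3) (h2 : BSl n e2 cP F2 Q2)
    (h2m : Mo4 n (e2 ^ 2) F2) {o : ℤ} (ho : |o| = 1) {K : ℕ} (hK : K ≤ n) (x : Pt) (u : Tri) :
    cos0 o K x u F1 F2 F3 ≤ 2 * (cG Λ cP K0 C ε * prE ε t1 t3 e1 e3 e2) *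
      wP 1 (cube3 K x) u := by
  have hc := cG_nonneg (Λ := Λ) hcP hK0 hC hε
  have hp : 0 ≤ prE ε t1 t3 e1 e3 e2 := by
    unfold prE
    have := Real.rpow_nonneg (mul_nonneg ht1 ht3) (1 / 2 - ε)
    have := Real.rpow_nonneg (mul_nonneg he1 he3) (1 / 4 + ε / 2)
    have := Real.rpow_nonneg he2 (1 / 2 : ℝ)
    positivity
  have hgen := hG (cG Λ cP K0 C ε * prE ε t1 t3 e1 e3 e2) (mul_nonneg hc hp) u
    (cz o u F1 F2 F3) n (fun K hK x => by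
      rw [sum_cz o u F1 F2 F3 K x (fun k z => ¬ cst Λ u K k z)
        (fun k z => not_congr (cst_crn Λ u K k z))]
      exact gen_one hΛ hC hE hP hO hε hε' hcP hK0 ht1 ht3 he1 he2 he3 h1 h3 h2 h2m ho hK x u) K hK x
  refine le_trans (le_of_eq ?_) hgen
  have h4 := sum_cz o u F1 F2 F3 K x (fun _ _ => True) (fun _ _ => Iff.rfl)
  simp only [filter_true] at h4
  rw [h4]
  rfl

/-- the moment lemma for uniform slots -/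
def MoUni (K0 : ℝ) : Prop :=
  ∀ (n : ℕ) (t e cP : ℝ) (F : ℕ → Pt → ℝ) (Q : ℕ → Pt → Prop), 0 ≤ t → 0 ≤ e →
    BSl n e cP F Q → BUn n t F → Mo4 n (K0 * (t ^ 2 * e)) F

/-- the trivial moment -/
def MoTri : Prop :=
  ∀ (n : ℕ) (e cP : ℝ) (F : ℕ → Pt → ℝ) (Q : ℕ → Pt → Prop), 0 ≤ e →
    BSl n e cP F Q → Mo4 n (e ^ 2) F

/-- **(E), `L²` slot `F2`.** -/
theorem pos2_of {Λ C K0 : ℝ} (hΛ : 1 ≤ Λ) (hC : 0 ≤ C) (hK0 : 0 ≤ K0) (hG : GenSt Λ)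
    (hE : EngF C) (hP : PthSt Λ) (hO : OwnSt Λ) (hM : MoUni K0) (hT : MoTri) {ε cP : ℝ}
    (hε : 0 < ε) (hε' : ε ≤ 1 / 4) (hcP : 0 ≤ cP) : Pos2 (2 * cG Λ cP K0 C ε) ε cP := by
  intro n t1 t3 e1 e2 e3 F1 F2 F3 h1 h3 h2 o ho K hK x u
  obtain ⟨ht1, hte1, hU1, Q1, hB1⟩ := h1
  obtain ⟨ht3, hte3, hU3, Q3, hB3⟩ := h3
  obtain ⟨he2, Q2, hB2⟩ := h2
  have he1 : 0 ≤ e1 := (sq_nonneg _).trans hte1
  have he3 : 0 ≤ e3 := (sq_nonneg _).trans hte3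
  have ho' : |o| = 1 := by rcases ho with rfl | rfl <;> simp
  have h := cos0_le hΛ hC hG hE hP hO hε hε' hcP hK0 ht1 ht3 he1 he2 he3
    (F1 := F1) (F2 := F2) (F3 := F3)
    ⟨hB1, hT n e1 cP F1 Q1 he1 hB1, hM n t1 e1 cP F1 Q1 ht1 he1 hB1 hU1⟩
    ⟨hB3, hT n e3 cP F3 Q3 he3 hB3, hM n t3 e3 cP F3 Q3 ht3 he3 hB3 hU3⟩ hB2
    (hT n e2 cP F2 Q2 he2 hB2) ho' hK x u
  refine h.trans (le_of_eq ?_)
  ring

end

end Vale.Agent.P141.H48
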