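import Vale.Agent.P141.H48.Gen1
import Vale.Agent.P141.H48.En6
import Vale.Agent.P141.H206.EN2
import Vale.Agent.P141.H769.EN3
import Vale.Agent.P141.H784.EngF
import Vale.Agent.P141.H205.Cmp
import Vale.Agent.P141.H414.EnFin

/-!
# P141, line W, squad EN: (E) for static companions in the pair weight, unconditional
-/

namespace Vale.Agent.P141.H48

open Vale.Agent.P141.H444 (EnOut EnL)

noncomputable section

theorem moUni : MoUni 240000 := fun _ _ _ _ _ _ ht he hB hU =>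
  Vale.Agent.P141.H206.mo4_of_un ht he hB hU

theorem moTri : MoTri := fun _ _ _ _ _ he hB => Vale.Agent.P141.H206.mo4_of_l he hB

theorem pos2_all {ε cP : ℝ} (hε : 0 < ε) (hε' : ε ≤ 1 / 4) (hcP : 0 ≤ cP) :
    Pos2 (2 * cG Lam0 cP 240000 (2 * (2160 * 4400)) ε) ε cP :=
  pos2_of one_le_Lam0 (by norm_num) (by norm_num) genSt Vale.Agent.P141.H784.engF
    (Vale.Agent.P141.H769.pthSt _) (Vale.Agent.P141.H769.ownSt one_le_Lam0) moUni moTri hε hε' hcP

/-- the constant of (E) -/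
def Cen (ε : ℝ) : ℝ := 2 * cG Lam0 52 240000 (2 * (2160 * 4400)) ε * (2 ^ 9 : ℝ) ^ (5 / 2 : ℝ)

theorem Cen_nonneg {ε : ℝ} (hε : 0 < ε) : 0 ≤ Cen ε := by
  have := cG_nonneg (Λ := Lam0) (cP := 52) (K0 := 240000) (C := 2 * (2160 * 4400)) (ε := ε)
    (by norm_num) (by norm_num) (by norm_num) hε
  unfold Cen
  positivity

/-- **EN**: (E) with static companions, two uniform slots and one slot in `L²`. -/
theorem enOut {ε : ℝ} (hε : 0 < ε) (hε' : ε ≤ 1 / 4) : EnOut (Cen ε) ε := by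
  have h := Vale.Agent.P141.H414.enOut_of (T := 2 ^ 9) (by norm_num)
    (Vale.Agent.P141.H205.cmpSt_holds le_rfl) (pos2_all hε hε' (cP := 52) (by norm_num))
  exact h

/-- **EN at the level one.** -/
theorem enL {ε : ℝ} (hε : 0 < ε) (hε' : ε ≤ 1 / 4) : EnL (Cen ε * (2 ^ 7 * √(2 ^ 7))) :=
  Vale.Agent.P141.H444.enL_of_en (enOut hε hε')

end

end Vale.Agent.P141.H48
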